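import Mathlib

/-!
# P033: long monochromatic progressions in a perfect binary sequence

If `h : ZMod n → ℤ` is the first row of a circulant Hadamard matrix, the map
`f ↦ h * f` is `√n` times an isometry.  Applying this to indicator functions of arithmetic
progressions, and using that the progression sums move by at most `2` under a shift, we obtain
strong upper bounds on the length of monochromatic progressions (in particular on blocks).
-/

namespace Vale.Agent.P033

open Finset

variable {n : ℕ} [NeZero n]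

/-- `h` is the first row of a real circulant Hadamard matrix of order `n`: it is a sign vector
and the circulant matrix `H i j = h (j - i)` satisfies `H Hᵀ = n I`. -/
def IsCirculantHadamardRow (h : ZMod n → ℤ) : Prop :=
  (∀ x, h x = 1 ∨ h x = -1) ∧
    (Matrix.of fun i j : ZMod n => h (j - i)) * (Matrix.of fun i j : ZMod n => h (j - i)).transpose
      = (n : ℤ) • (1 : Matrix (ZMod n) (ZMod n) ℤ)

/-- The multiples `j • d`, `j < L`, are pairwise distinct, i.e. the progression with difference `d`
and `L` terms has `L` distinct elements. -/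
def DistinctProg (d : ZMod n) (L : ℕ) : Prop :=
  ∀ i j : ℕ, i < L → j < L → i • d = j • d → i = j

variable {h : ZMod n → ℤ}

lemma autocorr_zero (H : IsCirculantHadamardRow h) (t : ZMod n) (ht : t ≠ 0) :
    ∑ x, h x * h (x + t) = 0 := by
  have h1 := congrFun (congrFun H.2 0) (-t)
  simp only [Matrix.mul_apply, Matrix.transpose_apply, Matrix.of_apply, Matrix.smul_apply,
    sub_zero, sub_neg_eq_add, smul_eq_mul] at h1
  have h2 : (1 : Matrix (ZMod n) (ZMod n) ℤ) 0 (-t) = 0 := by
    rw [Matrix.one_apply_ne]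
    intro h0
    apply ht
    have := congrArg Neg.neg h0
    simpa using this.symm
  rw [h2] at h1
  simpa using h1

lemma autocorr_self (H : IsCirculantHadamardRow h) : ∑ x, h x * h x = n := by
  have : ∀ x, h x * h x = 1 := by
    intro x
    rcases H.1 x with h0 | h0 <;> rw [h0] <;> norm_num
  simp [this, ZMod.card]

lemma shift_sum (s s' : ZMod n) :
    ∑ x, h (x + s) * h (x + s') = ∑ x, h x * h (x + (s' - s)) := by
  rw [← Equiv.sum_comp (Equiv.addRight s) (fun x => h x * h (x + (s' - s)))]
  apply sum_congr rfl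
  intro x _
  simp only [Equiv.coe_addRight]
  congr 2
  ring

/-- The isometry identity for translates of a set. -/
lemma isometry (H : IsCirculantHadamardRow h) (S : Finset (ZMod n)) :
    ∑ x, (∑ s ∈ S, h (x + s)) ^ 2 = (S.card : ℤ) * n := by
  have h1 : ∀ x, (∑ s ∈ S, h (x + s)) ^ 2 = ∑ s ∈ S, ∑ s' ∈ S, h (x + s) * h (x + s') := by
    intro x
    rw [sq, Finset.sum_mul_sum]
  simp_rw [h1]
  rw [Finset.sum_comm]
  have h2 : ∀ s ∈ S, ∑ x, ∑ s' ∈ S, h (x + s) * h (x + s') = (n : ℤ) := by
    intro s hs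
    rw [Finset.sum_comm]
    have h3 : ∀ s' ∈ S, ∑ x, h (x + s) * h (x + s') = if s' = s then (n : ℤ) else 0 := by
      intro s' _
      rw [shift_sum]
      split_ifs with h4
      · subst h4
        simp [autocorr_self H]
      · exact autocorr_zero H _ (sub_ne_zero.mpr h4)
    rw [Finset.sum_congr rfl h3, Finset.sum_ite_eq' S s]
    simp [hs]
  rw [Finset.sum_congr rfl h2]
  simp

/-- The sum of `h` over the progression `x, x + d, …, x + (m-1) d`. -/
def progSum (h : ZMod n → ℤ) (d : ZMod n) (m : ℕ) (x : ZMod n) : ℤ :=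
  ∑ j ∈ range m, h (x + j • d)

lemma progSum_isometry (H : IsCirculantHadamardRow h) {d : ZMod n} {m : ℕ}
    (hd : DistinctProg d m) : ∑ x, progSum h d m x ^ 2 = (m : ℤ) * n := by
  have hinj : Set.InjOn (fun j : ℕ => j • d) (range m : Set ℕ) := by
    intro i hi j hj hij
    exact hd i j (by simpa using hi) (by simpa using hj) hij
  have h1 := isometry H ((range m).image fun j : ℕ => j • d)
  rw [Finset.card_image_of_injOn hinj, card_range] at h1
  rw [← h1]
  apply sum_congr rfl
  intro x _
  rw [Finset.sum_image hinj]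
  rfl

lemma progSum_step (H : IsCirculantHadamardRow h) (d : ZMod n) (m : ℕ) (x : ZMod n) :
    |progSum h d m (x + d) - progSum h d m x| ≤ 2 := by
  have h1 : progSum h d m x + h (x + m • d)
      = progSum h d m (x + d) + h x := by
    unfold progSum
    rw [← Finset.sum_range_succ, Finset.sum_range_succ']
    congr 1
    · apply sum_congr rfl
      intro j _
      congr 1
      rw [succ_nsmul]
      ring
    · simp
  have h2 : progSum h d m (x + d) - progSum h d m x = h (x + m • d) - h x := by linarith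
  rw [h2]
  rcases H.1 (x + m • d) with h3 | h3 <;> rcases H.1 x with h4 | h4 <;> rw [h3, h4] <;> norm_num

lemma progSum_lip (H : IsCirculantHadamardRow h) (d : ZMod n) (m : ℕ) (k : ℕ) (x : ZMod n) :
    |progSum h d m (x + k • d) - progSum h d m x| ≤ 2 * k := by
  induction k with
  | zero => simp
  | succ k ih =>
    have h1 := progSum_step H d m (x + k • d)
    have h2 : x + k • d + d = x + (k + 1) • d := by
      rw [succ_nsmul]
      ring
    rw [h2] at h1
    have h3 := abs_sub_le (progSum h d m (x + (k + 1) • d)) (progSum h d m (x + k • d))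
      (progSum h d m x)
    push_cast
    linarith

lemma sum_right (W : ℤ) (r : ℕ) :
    3 * ∑ i ∈ range r, (W - 2 * ((i : ℤ) + 1)) ^ 2
      = 3 * r * W ^ 2 - 6 * W * r * (r + 1) + 2 * r * (r + 1) * (2 * r + 1) := by
  induction r with
  | zero => simp
  | succ r ih =>
    rw [Finset.sum_range_succ, mul_add, ih]
    push_cast
    ring

lemma sum_left (W : ℤ) (r : ℕ) :
    3 * ∑ i ∈ range r, (W - 2 * ((r : ℤ) - i)) ^ 2
      = 3 * r * W ^ 2 - 6 * W * r * (r + 1) + 2 * r * (r + 1) * (2 * r + 1) := by
  rw [← sum_right W r, ← Finset.sum_range_reflect]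
  congr 1
  apply sum_congr rfl
  intro i hi
  have hi' := mem_range.mp hi
  have h1 : ((r - 1 - i : ℕ) : ℤ) = (r : ℤ) - 1 - i := by omega
  rw [h1]
  ring

/-- Main lemma: a plateau of a progression sum.  If `|F| ≥ W` at the `K + 1` consecutive shifts
`a, a + d, …, a + K d`, then `3 K W² + W (W² + 2) ≤ 3 m n`. -/
theorem plateau (H : IsCirculantHadamardRow h) {d : ZMod n} {m D K : ℕ} (W : ℕ) (a : ZMod n)
    (hD : DistinctProg d D) (hm : m ≤ D) (hKW : K + W ≤ D)
    (hW : ∀ i ≤ K, (W : ℤ) ≤ |progSum h d m (a + i • d)|) :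
    3 * (K : ℤ) * W ^ 2 + W * (W ^ 2 + 2) ≤ 3 * m * n := by
  rcases Nat.eq_zero_or_pos W with rfl | hWpos
  · positivity
  -- the half width
  obtain ⟨r, hr⟩ : ∃ r : ℕ, (W = 2 * r + 1) ∨ (W = 2 * r + 2) := by
    refine ⟨(W - 1) / 2, ?_⟩
    omega
  have hrW : 2 * r + 1 ≤ W := by omega
  set F := progSum h d m with hF
  have hmd : DistinctProg d m := fun i j hi hj => hD i j (by omega) (by omega)
  set b : ZMod n := a - r • d with hb
  have hab : ∀ k : ℕ, b + (r + k) • d = a + k • d := by
    intro k
    rw [hb, add_nsmul]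
    ring
  -- injectivity of the index map
  set N := r + (K + 1) + r with hN
  have hND : N ≤ D := by omega
  have hinj : Set.InjOn (fun i : ℕ => b + i • d) (range N : Set ℕ) := by
    intro i hi j hj hij
    have hi' : i < N := by simpa using hi
    have hj' : j < N := by simpa using hj
    exact hD i j (by omega) (by omega) (add_left_cancel hij)
  -- the sum over the points is bounded by the total energy
  have h1 : ∑ i ∈ range N, F (b + i • d) ^ 2 ≤ (m : ℤ) * n := by
    rw [← progSum_isometry H hmd]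
    have h2 : ∑ i ∈ range N, F (b + i • d) ^ 2
        = ∑ y ∈ (range N).image (fun i : ℕ => b + i • d), F y ^ 2 := by
      rw [Finset.sum_image hinj]
    rw [h2]
    exact Finset.sum_le_sum_of_subset_of_nonneg (subset_univ _) (fun y _ _ => sq_nonneg _)
  -- split into three parts
  rw [hN, Finset.sum_range_add, Finset.sum_range_add] at h1
  -- lower bounds
  have hWr : (2 * (r : ℤ) + 1) ≤ W := by exact_mod_cast hrW
  have hleft : ∑ i ∈ range r, ((W : ℤ) - 2 * ((r : ℤ) - i)) ^ 2
      ≤ ∑ i ∈ range r, F (b + i • d) ^ 2 := by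
    apply sum_le_sum
    intro i hi
    have hi' := mem_range.mp hi
    have h2 := hW 0 (Nat.zero_le _)
    have h3 := progSum_lip H d m (r - i) (b + i • d)
    have h4 : b + i • d + (r - i) • d = a := by
      have := hab 0
      simp only [add_zero, zero_nsmul] at this
      rw [← this, add_assoc, ← add_nsmul]
      congr 2
      omega
    rw [h4] at h3
    simp only [zero_nsmul, add_zero] at h2
    have h5 : (((r - i : ℕ) : ℤ)) = (r : ℤ) - i := by omega
    rw [h5] at h3
    have h6 : |F a| ≤ |F (b + i • d)| + |F a - F (b + i • d)| := by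
      have := abs_add_le (F (b + i • d)) (F a - F (b + i • d))
      simpa using this
    have h7 : (0 : ℤ) ≤ (W : ℤ) - 2 * ((r : ℤ) - i) := by
      have : (i : ℤ) ≥ 0 := by positivity
      linarith
    have h8 : (W : ℤ) - 2 * ((r : ℤ) - i) ≤ |F (b + i • d)| := by linarith
    calc ((W : ℤ) - 2 * ((r : ℤ) - i)) ^ 2 ≤ |F (b + i • d)| ^ 2 := by gcongr
      _ = F (b + i • d) ^ 2 := sq_abs _
  have hmid : ((K : ℤ) + 1) * (W : ℤ) ^ 2 ≤ ∑ i ∈ range (K + 1), F (b + (r + i) • d) ^ 2 := by
    have h2 : ∀ i ∈ range (K + 1), (W : ℤ) ^ 2 ≤ F (b + (r + i) • d) ^ 2 := by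
      intro i hi
      have hi' := mem_range.mp hi
      have h3 := hW i (by omega)
      rw [hab i, ← sq_abs (F (a + i • d))]
      gcongr
    have := Finset.sum_le_sum h2
    simpa using this
  have hright : ∑ i ∈ range r, ((W : ℤ) - 2 * ((i : ℤ) + 1)) ^ 2
      ≤ ∑ i ∈ range r, F (b + (r + (K + 1) + i) • d) ^ 2 := by
    apply sum_le_sum
    intro i hi
    have hi' := mem_range.mp hi
    have h2 := hW K le_rfl
    have h3 := progSum_lip H d m (i + 1) (a + K • d)
    have h4 : a + K • d + (i + 1) • d = b + (r + (K + 1) + i) • d := by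
      rw [← hab K, add_assoc, ← add_nsmul]
      congr 2
      omega
    rw [h4] at h3
    have h6 : |F (a + K • d)| ≤ |F (b + (r + (K + 1) + i) • d)|
        + |F (b + (r + (K + 1) + i) • d) - F (a + K • d)| := by
      have := abs_add_le (F (b + (r + (K + 1) + i) • d))
        (F (a + K • d) - F (b + (r + (K + 1) + i) • d))
      rw [abs_sub_comm (F (b + (r + (K + 1) + i) • d)) (F (a + K • d))]
      simpa using this
    have hirr : (i : ℤ) + 1 ≤ r := by exact_mod_cast hi'
    have h7 : (0 : ℤ) ≤ (W : ℤ) - 2 * ((i : ℤ) + 1) := by linarith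
    have h8 : (W : ℤ) - 2 * ((i : ℤ) + 1) ≤ |F (b + (r + (K + 1) + i) • d)| := by
      push_cast at h3
      linarith
    calc ((W : ℤ) - 2 * ((i : ℤ) + 1)) ^ 2 ≤ |F (b + (r + (K + 1) + i) • d)| ^ 2 := by gcongr
      _ = F (b + (r + (K + 1) + i) • d) ^ 2 := sq_abs _
  have hL := sum_left (W : ℤ) r
  have hR := sum_right (W : ℤ) r
  have htotal : 3 * (K : ℤ) * W ^ 2 + W * (W ^ 2 + 2)
      = 3 * ∑ i ∈ range r, ((W : ℤ) - 2 * ((r : ℤ) - i)) ^ 2
        + 3 * (((K : ℤ) + 1) * (W : ℤ) ^ 2)
        + 3 * ∑ i ∈ range r, ((W : ℤ) - 2 * ((i : ℤ) + 1)) ^ 2 := by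
    rw [hL, hR]
    rcases hr with hr | hr <;> subst hr <;> push_cast <;> ring
  rw [htotal]
  linarith

/-- Discrepancy along a progression with distinct terms. -/
theorem discrepancy (H : IsCirculantHadamardRow h) (a d : ZMod n) (m : ℕ)
    (hd : DistinctProg d m) :
    |progSum h d m a| * (|progSum h d m a| ^ 2 + 2) ≤ 3 * m * n := by
  have hle : |progSum h d m a| ≤ m := by
    unfold progSum
    calc |∑ j ∈ range m, h (a + j • d)| ≤ ∑ j ∈ range m, |h (a + j • d)| :=
          Finset.abs_sum_le_sum_abs _ _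
      _ ≤ ∑ _j ∈ range m, (1 : ℤ) := by
          apply sum_le_sum
          intro j _
          rcases H.1 (a + j • d) with h0 | h0 <;> rw [h0] <;> norm_num
      _ = m := by simp
  have hW : ((|progSum h d m a|).natAbs : ℤ) = |progSum h d m a| :=
    Int.natAbs_of_nonneg (abs_nonneg _)
  have h1 := plateau H (K := 0) (W := (|progSum h d m a|).natAbs) a hd le_rfl
    (by omega) (by
      intro i hi
      obtain rfl : i = 0 := by omega
      rw [hW]
      simp)
  rw [hW] at h1
  simpa using h1

lemma sign_abs (H : IsCirculantHadamardRow h) (x : ZMod n) (k : ℤ) : |k * h x| = |k| := by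
  rcases H.1 x with h0 | h0 <;> rw [h0] <;> simp

/-- A monochromatic progression with `L` distinct terms: the window inequality for every `m`. -/
theorem mono_window (H : IsCirculantHadamardRow h) (a d : ZMod n) (L m : ℕ)
    (hd : DistinctProg d L) (hc : ∀ j < L, h (a + j • d) = h a) (hm1 : 1 ≤ m) (hmL : m ≤ L) :
    3 * (m : ℤ) * ((L : ℤ) - m) + (m : ℤ) ^ 2 + 2 ≤ 3 * n := by
  have h1 := plateau H (K := L - m) (W := m) (m := m) (D := L) a hd hmL (by omega) (by
    intro i hi
    have h2 : progSum h d m (a + i • d) = (m : ℤ) * h a := by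
      unfold progSum
      have h3 : ∀ j ∈ range m, h (a + i • d + j • d) = h a := by
        intro j hj
        have hj' := mem_range.mp hj
        rw [add_assoc, ← add_nsmul]
        exact hc _ (by omega)
      rw [Finset.sum_congr rfl h3]
      simp
    rw [h2, sign_abs H]
    simp)
  have hL : ((L - m : ℕ) : ℤ) = (L : ℤ) - m := by omega
  rw [hL] at h1
  have hmpos : (0 : ℤ) < m := by exact_mod_cast hm1
  have h2 : (m : ℤ) * (3 * (m : ℤ) * ((L : ℤ) - m) + (m : ℤ) ^ 2 + 2) ≤ (m : ℤ) * (3 * n) := by
    nlinarith [h1]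
  exact le_of_mul_le_mul_left h2 hmpos

/-- The length bound `3 L² + 4 ≤ 8 n` for monochromatic progressions. -/
theorem mono_length (H : IsCirculantHadamardRow h) (a d : ZMod n) (L : ℕ)
    (hd : DistinctProg d L) (hL1 : 1 ≤ L) (hc : ∀ j < L, h (a + j • d) = h a) :
    3 * L ^ 2 + 4 ≤ 8 * n := by
  have key : 3 * ((L : ℤ)) ^ 2 + 4 ≤ 8 * (n : ℤ) := by
    obtain ⟨q, hq⟩ : ∃ q : ℕ, L = 4 * q ∨ L = 4 * q + 1 ∨ L = 4 * q + 2 ∨ L = 4 * q + 3 :=
      ⟨L / 4, by omega⟩
    rcases hq with hq | hq | hq | hq
    · have h1 := mono_window H a d L (3 * q) hd hc (by omega) (by omega)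
      subst hq
      push_cast at h1 ⊢
      nlinarith [h1]
    · have h1 := mono_window H a d L (3 * q + 1) hd hc (by omega) (by omega)
      subst hq
      push_cast at h1 ⊢
      nlinarith [h1]
    · have h1 := mono_window H a d L (3 * q + 2) hd hc (by omega) (by omega)
      subst hq
      push_cast at h1 ⊢
      nlinarith [h1]
    · have h1 := mono_window H a d L (3 * q + 2) hd hc (by omega) (by omega)
      subst hq
      push_cast at h1 ⊢
      nlinarith [h1]
  exact_mod_cast key

lemma distinct_one (L : ℕ) (hL : L ≤ n) : DistinctProg (1 : ZMod n) L := by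
  intro i j hi hj hij
  simp only [nsmul_eq_mul, mul_one] at hij
  have := (ZMod.natCast_eq_natCast_iff' i j n).mp hij
  rwa [Nat.mod_eq_of_lt (by omega), Nat.mod_eq_of_lt (by omega)] at this

/-- The length bound for blocks of equal consecutive signs. -/
theorem block_length (H : IsCirculantHadamardRow h) (a : ZMod n) (L : ℕ) (hL1 : 1 ≤ L)
    (hLn : L ≤ n) (hc : ∀ j < L, h (a + (j : ZMod n)) = h a) :
    3 * L ^ 2 + 4 ≤ 8 * n := by
  refine mono_length H a 1 L (distinct_one L hLn) hL1 ?_
  intro j hj
  simpa using hc j hj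

end Vale.Agent.P033
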